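import Mathlib
import Vale.Agent.P007.Defs
import Vale.Agent.P007.Invariant
import Vale.Agent.P007.Packet
import Vale.Agent.P007.Fields

/-!
Failure of equidistribution of torus packets in every composite degree.
-/

namespace Vale.Agent.Results.P007.CompositeDegree

open Vale.Agent.P007 MeasureTheory Filter

theorem result :
    (∀ (n : ℕ), 4 ≤ n → ¬ n.Prime →
      ∀ [MeasurableSpace (LatticeSpace n)] [BorelSpace (LatticeSpace n)],
      ∃ (K : ℕ → IntermediateField ℚ ℂ),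
        (∀ i, ∃ _ : NumberField (K i), Module.finrank ℚ (K i) = n ∧
          NumberField.IsTotallyReal (K i) ∧ (i : ℤ) ≤ |NumberField.discr (K i)| ∧
          Nonempty (Fin n ≃ (K i →+* ℝ)) ∧
          ∀ σ : Fin n ≃ (K i →+* ℝ),
            (packet (K i) (integralClosure ℤ (K i)).toSubring σ).Nonempty) ∧
        ∃ f : LatticeSpace n → ℝ, Continuous f ∧ HasCompactSupport f ∧
          (∀ x, 0 ≤ f x) ∧ (∃ x, f x = 1) ∧
          (∀ (i : ℕ) (σ : Fin n ≃ (K i →+* ℝ)),
            ∀ x ∈ closure (packet (K i) (integralClosure ℤ (K i)).toSubring σ), f x = 0) ∧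
          (∀ (i : ℕ) (σ : Fin n ≃ (K i →+* ℝ)) (μ : Measure (LatticeSpace n)),
            μ (packet (K i) (integralClosure ℤ (K i)).toSubring σ)ᶜ = 0 →
            ∫ x, f x ∂μ = 0) ∧
          ∀ m : Measure (LatticeSpace n), IsProbabilityMeasure m →
            (∀ h : Matrix.SpecialLinearGroup (Fin n) ℝ, m.map (fun x => h • x) = m) →
            0 < ∫ x, f x ∂m ∧
            ∀ (σ : ∀ i, Fin n ≃ (K i →+* ℝ)) (μ : ℕ → Measure (LatticeSpace n)),
              (∀ i, μ i (packet (K i) (integralClosure ℤ (K i)).toSubring (σ i))ᶜ = 0) →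
              ∀ φ : ℕ → ℕ,
                ¬ Tendsto (fun i => ∫ x, f x ∂μ (φ i)) atTop (nhds (∫ x, f x ∂m))) ∧
    (∀ (n : ℕ) (P : Polynomial ℤ), P ≠ 0 →
      ∀ [MeasurableSpace (LatticeSpace n)] [BorelSpace (LatticeSpace n)],
      ∃ f : LatticeSpace n → ℝ, Continuous f ∧ HasCompactSupport f ∧
        (∀ x, 0 ≤ f x) ∧ (∃ x, f x = 1) ∧
        (∀ (K : Type) [Field K] [NumberField K] (O : Subring K) (σ : Fin n ≃ (K →+* ℝ)),
          Module.finrank ℚ K = n →
          (∃ r ∈ O, Polynomial.aeval r P = 0 ∧ r ∉ Set.range (algebraMap ℚ K)) →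
          (∀ x ∈ closure (packet K O σ), f x = 0) ∧ ∀ μ : Measure (LatticeSpace n), μ (packet K O σ)ᶜ = 0 → ∫ x, f x ∂μ = 0) ∧
        ∀ m : Measure (LatticeSpace n), IsProbabilityMeasure m →
          (∀ h : Matrix.SpecialLinearGroup (Fin n) ℝ, m.map (fun x => h • x) = m) →
          0 < ∫ x, f x ∂m) := by
  have criterion : ∀ (n : ℕ) (P : Polynomial ℤ), P ≠ 0 →
      ∀ [MeasurableSpace (LatticeSpace n)] [BorelSpace (LatticeSpace n)],
      ∃ f : LatticeSpace n → ℝ, Continuous f ∧ HasCompactSupport f ∧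
        (∀ x, 0 ≤ f x) ∧ (∃ x, f x = 1) ∧
        (∀ (K : Type) [Field K] [NumberField K] (O : Subring K) (σ : Fin n ≃ (K →+* ℝ)),
          Module.finrank ℚ K = n →
          (∃ r ∈ O, Polynomial.aeval r P = 0 ∧ r ∉ Set.range (algebraMap ℚ K)) →
          (∀ x ∈ closure (packet K O σ), f x = 0) ∧ ∀ μ : Measure (LatticeSpace n), μ (packet K O σ)ᶜ = 0 → ∫ x, f x ∂μ = 0) ∧
        ∀ m : Measure (LatticeSpace n), IsProbabilityMeasure m →
          (∀ h : Matrix.SpecialLinearGroup (Fin n) ℝ, m.map (fun x => h • x) = m) →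
          0 < ∫ x, f x ∂m := by
    intro n P hP _ _
    obtain ⟨f, hfc, hfs, hnn, hone, hC, hzero, hpos⟩ := exists_test_function
      (invariantSet n (P.aroots ℝ).toFinset) (isClosed_invariantSet n _) (invariantSet_ne_univ _)
    refine ⟨f, hfc, hfs, hnn, hone, fun K _ _ O σ hdeg hr => ?_, fun m hm hinv => ?_⟩
    · obtain ⟨r, hrO, hrP, hr⟩ := hr
      let b := (Module.finBasis ℚ K).reindex (finCongr hdeg)
      have hsub := packet_subset O σ b P hP hrO hrP hr
      exact ⟨fun x hx => hC x ((isClosed_invariantSet n _).closure_subset_iff.2 hsub hx),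
        fun μ hμ => hzero μ (measure_mono_null (Set.compl_subset_compl.2 hsub) hμ)⟩
    · exact hpos m inferInstance (IsProbabilityMeasure.ne_zero m) hinv
  refine ⟨?_, criterion⟩
  intro n hn hnp _ _
  obtain ⟨a, b, ha, hb, hab⟩ : ∃ a b : ℕ, 1 < a ∧ 1 < b ∧ a * b = n := by
    obtain ⟨a, hdvd, h2, hlt⟩ := Nat.exists_dvd_of_not_prime2 (by omega) hnp
    obtain ⟨b, rfl⟩ := hdvd
    refine ⟨a, b, by omega, ?_, rfl⟩
    rcases b with _ | _ | b <;> omega
  subst hab
  obtain ⟨P, hP, hfields⟩ := exists_fields a b ha hb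
  choose K hNF hdeg htr hdisc hord hroot using hfields
  obtain ⟨f, hfc, hfs, hnn, hone, hzero, hpos⟩ := criterion (a * b) P hP
  have key0 : ∀ (i : ℕ) (σ : Fin (a * b) ≃ (K i →+* ℝ)),
      ∀ x ∈ closure (packet (K i) (integralClosure ℤ (K i)).toSubring σ), f x = 0 := by
    intro i σ
    have := hNF i
    obtain ⟨r, hri, hrP, hr⟩ := hroot i
    exact (hzero (K i) _ σ (hdeg i) ⟨r, hri, hrP, hr⟩).1
  have key : ∀ (i : ℕ) (σ : Fin (a * b) ≃ (K i →+* ℝ)) (μ : Measure (LatticeSpace (a * b))),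
      μ (packet (K i) (integralClosure ℤ (K i)).toSubring σ)ᶜ = 0 → ∫ x, f x ∂μ = 0 := by
    intro i σ μ hμ
    have := hNF i
    obtain ⟨r, hri, hrP, hr⟩ := hroot i
    exact (hzero (K i) _ σ (hdeg i) ⟨r, hri, hrP, hr⟩).2 μ hμ
  refine ⟨K, fun i => ?_, f, hfc, hfs, hnn, hone, key0, key, fun m hm hinv => ⟨hpos m hm hinv, ?_⟩⟩
  · have := hNF i
    exact ⟨hNF i, hdeg i, htr i, hdisc i, hord i, fun σ =>
      packet_nonempty (hdeg i) (by omega) σ⟩
  · intro σ μ hμ φ hlim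
    have h0 : (fun i => ∫ x, f x ∂μ (φ i)) = fun _ => 0 :=
      funext fun i => key (φ i) (σ (φ i)) _ (hμ (φ i))
    rw [h0] at hlim
    exact (hpos m hm hinv).ne' (tendsto_nhds_unique hlim tendsto_const_nhds)

end Vale.Agent.Results.P007.CompositeDegree
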